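import Crest.Agent.X261.Eqv.B2
import Crest.Agent.X261.Ans.Comp
import Crest.Agent.X261.Psh.Ext

/-!
# Row 261, package EQV, the wandering case (helper18)

* `EqW.bdd`  : in the wandering case a saturated open set is relatively compact;
* `EqW.exZ`  : bounded classes lie in compact connected analytic sets;
* `EqW.wand` : the field `wand` of `Eqv.TP.Out`.
-/

set_option autoImplicit false
set_option linter.unusedSectionVars false
set_option linter.dupNamespace false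

open Set Filter Topology MeasureTheory Metric
open scoped ENNReal

namespace Crest.Agent.X261.EqW

open Crest.Agent.X261.Ans Crest.Agent.X261.Psh Crest.Agent.X261.Eqv Crest.Agent.X261.Loc

noncomputable section

variable {E : Type} [NormedAddCommGroup E] [NormedSpace ℂ E] [FiniteDimensional ℂ E]
  [MeasurableSpace E] [BorelSpace E] {μ : Measure E} [μ.IsAddHaarMeasure]
  {M : Type} [TopologicalSpace M] {A : HA E M} {G : Type} [Group G] [MulAction G M]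

theorem add_neg_self (a : EReal) (b : ℝ) : a + (b : EReal) + ((-b : ℝ) : EReal) = a := by
  rw [add_assoc, ← EReal.coe_add, add_neg_cancel, EReal.coe_zero, add_zero]

theorem neg_add_self (a : EReal) (b : ℝ) : a + ((-b : ℝ) : EReal) + (b : EReal) = a := by
  rw [add_assoc, ← EReal.coe_add, neg_add_cancel, EReal.coe_zero, add_zero]

/-- gluing `s` (on `T`) with `max s (f - b)` (off `T`), extended across `Z` -/
theorem glue {D Z T : Set E} (hD : IsOpen D) (hZ : An D Z) (hd : ∀ x ∈ D, ∃ᶠ y in 𝓝 x, y ∉ Z)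
    {s f : E → EReal} (hs : IsPsh D s) (hf : IsPsh D f) (hsf : ∀ z ∈ D, s z ≤ f z) {b : ℝ}
    (hb : 0 ≤ b) (h1 : ∀ z ∈ D, z ∉ Z → z ∉ T → ∀ᶠ w in 𝓝 z, w ∉ T)
    (h2 : ∀ z ∈ D, z ∉ Z → z ∈ T → ∀ᶠ w in 𝓝 z, w ∉ T → f w ≤ s w + b) :
    ∃ g : E → EReal, IsPsh D g ∧ ∀ z ∈ D, z ∉ Z →
      g z ≤ f z ∧ (z ∉ T → f z ≤ g z + b) ∧ (z ∈ T → g z = s z) := by
  classical
  set g : E → EReal := fun z => if z ∈ T then s z else max (s z) (f z + ((-b : ℝ) : EReal))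
    with hg
  have hle : ∀ z ∈ D, g z ≤ f z := fun z hz => by
    by_cases h : z ∈ T
    · simpa [hg, h] using hsf z hz
    · simp only [hg, h, if_false]
      refine max_le (hsf z hz) ?_
      calc _ ≤ f z + ((0 : ℝ) : EReal) :=
            add_le_add le_rfl (EReal.coe_le_coe_iff.2 (by linarith))
        _ = f z := by simp
  have hp : IsPsh (D \ Z) g := by
    refine IsPsh.of_nhds fun z hz => ?_
    by_cases h : z ∈ T
    · refine ⟨_, inter_mem (hD.mem_nhds hz.1) (h2 z hz.1 hz.2 h),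
        (hs.mono inter_subset_left).congr fun w hw => ?_⟩
      by_cases h' : w ∈ T
      · simp [hg, h']
      · simp only [hg, h', if_false]
        refine (max_eq_left ?_).symm
        exact (add_le_add (hw.2 h') le_rfl).trans_eq (add_neg_self _ _)
    · refine ⟨_, inter_mem (hD.mem_nhds hz.1) (h1 z hz.1 hz.2 h),
        ((hs.sup (hf.add_const (-b))).mono inter_subset_left).congr fun w hw => ?_⟩
      have h' : w ∉ T := hw.2
      simp only [hg, h', if_false]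
  refine ⟨rext Z g, isPsh_rext_an hD hZ hd hp fun x hx => ?_, fun z hz hzZ => ?_⟩
  · obtain ⟨C, hC⟩ := bdd_of_usc (Z := Z) hf.usc hf.lt_top hD hx
    exact ⟨C, by
      filter_upwards [hC, hD.mem_nhds hx] with y h3 h4 h5 using (hle y h4).trans (h3 h5)⟩
  rw [hp.rext_eqOn (isOpen_diff_an hD hZ) ⟨hz, hzZ⟩]
  refine ⟨hle z hz, fun h => ?_, fun h => by simp [hg, h]⟩
  simp only [hg, h, if_false]
  exact (neg_add_self _ _).symm.trans_le (add_le_add (le_max_right _ _) le_rfl)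

variable (T : TP μ A G)

theorem near_of_good {x : M} (hx : T.Good x) (k : ℕ) : T.Near k x := by
  obtain ⟨N, hN⟩ := T.exists_near k
  have h : 0 < max N 1 := lt_max_of_lt_right one_pos
  exact hN _ (le_max_left _ _) h x (hx _ h)

/-- the poles of the slices, with a uniform constant -/
theorem pole (k : ℕ) : ∃ c : ℝ, 0 < c ∧ ∀ y, T.Typ y → ∀ i, y ∈ (A.e i).source → ∃ C : ℝ,
    ∀ᶠ z in 𝓝[≠] (A.e i y), T.sl k y ((A.e i).symm z) + (T.wt i z : ℝ) ≤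
      ((c * Real.log ‖z - A.e i y‖ + C : ℝ) : EReal) := by
  obtain ⟨c, hc, hp⟩ := T.pole k
  refine ⟨c, hc, fun y hy i hi => ?_⟩
  have hyt := (A.e i).map_source hi
  obtain ⟨C, V, hV, hp⟩ := hp i _ hyt
  obtain ⟨C', hC'⟩ := T.wt_bdd i _ hyt
  refine ⟨C + C', ?_⟩
  have h0 : ∀ᶠ w in 𝓝 (A.e i y), w ∈ V ∧ |T.wt i w| ≤ C' ∧ w ∈ (A.e i).target :=
    (Filter.Eventually.and hV (hC'.and (HA.ev_target hi)))
  filter_upwards [mem_nhdsWithin_of_mem_nhds h0.eventually_nhds, self_mem_nhdsWithin]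
    with z hz hne
  have hne : z ≠ A.e i y := hne
  have hcont : ContinuousAt (fun w => c * Real.log ‖w - A.e i y‖ + (C + C')) z :=
    (continuousAt_const.mul ((continuousAt_id.sub continuousAt_const).norm.log
      (norm_ne_zero_iff.2 (sub_ne_zero.2 hne)))).add continuousAt_const
  refine (hy.psh k i).le_of_ae μ (A.e i).open_target hz.self_of_nhds.2.2
    (g := fun w => ((c * Real.log ‖w - A.e i y‖ + (C + C') : ℝ) : EReal))
    (continuous_coe_real_ereal.continuousAt.comp hcont).upperSemicontinuousAt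
    (inter_mem hz (isOpen_ne.mem_nhds hne)) ?_
  filter_upwards [hy.eq k i, T.M0_ae i] with w h1 h2 hw
  have hw1 : w ∈ V ∧ |T.wt i w| ≤ C' ∧ w ∈ (A.e i).target := hw.1
  have hw2 : w ≠ A.e i y := hw.2
  have h3 := hp _ (mem_of_mem_nhds hV) w hw1.1 (by rw [(A.e i).left_inv hi]; exact hy.mem)
    (h2 hw1.2.2) ‖w - A.e i y‖ (norm_pos_iff.2 (sub_ne_zero.2 hw2)) (norm_sub_rev _ _).le
  rw [(A.e i).left_inv hi, T.Xi_symm k y hy.mem _ (h2 hw1.2.2), ← h1 hw1.2.2] at h3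
  exact le_coe_mono (add_le_coe h3 le_rfl) (by linarith [(abs_le.1 hw1.2.1).2])

/-- the lower bound for points related to a far pair -/
theorem shell (k : ℕ) (a : ℝ) : ∃ b : ℝ, 0 ≤ b ∧ ∀ w w' x y : M, (w, w') ∉ T.cl k a →
    (w, x) ∈ T.R0 → (y, w') ∈ T.R0 → x ∈ T.M0 → y ∈ T.M0 → T.Near (k + 4) x →
    T.Near (k + 4) y → ((-b : ℝ) : EReal) ≤ T.Xi (k + 4) x y := by
  obtain ⟨b1, h1⟩ := T.cl_comp k a
  obtain ⟨b2, h2⟩ := T.cl_comp (k + 2) b1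
  refine ⟨max b2 0, le_max_right _ _, fun w w' x y hw hx hy hx0 hy0 hxn hyn => ?_⟩
  by_contra h
  have h3 : (x, y) ∈ T.cl (k + 4) b2 :=
    TP.cl_anti (le_max_left b2 0) (TP.mem_cl_of hx0 hy0 (le_of_lt (lt_of_not_ge h)))
  exact hw (h1 w y w' (hyn.anti (by omega)) (h2 w x y hxn (hx _ _) h3) (hy _ _))

variable {F : Type} [NormedAddCommGroup F] [NormedSpace ℂ F] (L : Leaf G M F)

/-- in the wandering case a saturated open set is relatively compact -/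
theorem bdd [Nontrivial E] [T2Space M] [PreconnectedSpace M] [Countable A.ι]
    (act : ∀ g x, L.act g x = g • x) (an_S : A.An univ L.Sᶜ)
    (R_sub : ∀ x ∈ L.S, ∀ y ∈ L.S, L.R x y → (x, y) ∈ T.R0) (typ : AE μ A T.Typ) {k0 : ℕ}
    (far : ∀ x ∈ L.S, ∀ C : Set (M × M), IsCompact C →
      (∀ q ∈ C, q.1 ∈ L.U x ∧ q.2 ∈ L.U x ∧ L.π x q.1 ≠ L.π x q.2) →
      ∃ a : ℝ, ∀ q ∈ C, q ∉ T.cl k0 a)
    (hop : ∀ x ∈ L.S, ∀ y ∈ L.S, L.R x y → ∀ W ∈ 𝓝 y, ∀ᶠ x' in 𝓝 x,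
      ∃ y' ∈ W, y' ∈ L.S ∧ L.R x' y')
    (hcl : ∀ x ∈ L.S, ∀ y ∈ L.S, (∃ᶠ q in 𝓝 (x, y), q.1 ∈ L.S ∧ q.2 ∈ L.S ∧ L.R q.1 q.2) →
      L.R x y)
    (hW : L.Wand) : ∃ O : Set M, IsOpen O ∧ O.Nonempty ∧ O ⊆ L.S ∧
      (∀ x ∈ O, ∀ y ∈ L.S, L.R x y → y ∈ O) ∧ ∃ C : Set M, IsCompact C ∧ O ⊆ C := by
  obtain ⟨W, hWo, ⟨x0, hx0⟩, hWS, hW⟩ := hW
  have := A.locallyCompact
  have := A.secondCountable
  have hS0 := hWS hx0
  have hUo := L.U_opn x0 hS0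
  obtain ⟨N, hNn, hNs, hN⟩ := local_compact_nhds
    ((hWo.inter hUo).mem_nhds ⟨hx0, L.U_mem x0 hS0⟩)
  have hNU : N ⊆ L.U x0 := fun w hw => (hNs hw).2
  have hNS : N ⊆ L.S := fun w hw => hWS (hNs hw).1
  set π := L.π x0 with hπ
  set o := π x0 with ho
  obtain ⟨r, hr, hball⟩ := Metric.mem_nhds_iff.1 (L.π_opn x0 hS0 x0 (L.U_mem x0 hS0) N hNn)
  have hπc : ContinuousOn (fun w => dist (π w) o) N :=
    (continuous_id.dist continuous_const).comp_continuousOn ((L.π_cont x0 hS0).mono hNU)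
  have hcp : ∀ I : Set ℝ, IsClosed I → IsCompact (N ∩ (fun w => dist (π w) o) ⁻¹' I) :=
    fun I hI => hN.of_isClosed_subset (hπc.preimage_isClosed_of_isClosed hN.isClosed hI)
      inter_subset_left
  let To : ℝ → Set M := fun t => {x | x ∈ L.S ∧ ∃ w ∈ N, L.R x w ∧ dist (π w) o < t}
  let Tc : Set M := {x | x ∈ L.S ∧ ∃ w ∈ N, L.R x w ∧ dist (π w) o ≤ r / 2}
  have hTo : ∀ t ≤ r, IsOpen (To t) := by
    intro t ht
    refine isOpen_iff_mem_nhds.2 fun x ⟨hx, w, hw, hR, hd⟩ => ?_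
    have h1 : L.U x0 ∩ π ⁻¹' ball o t ∈ 𝓝 w := inter_mem (hUo.mem_nhds (hNU hw))
      (((L.π_cont x0 hS0).continuousAt (hUo.mem_nhds (hNU hw))).preimage_mem_nhds
        (isOpen_ball.mem_nhds hd))
    filter_upwards [hop x hx w (hNS hw) hR _ h1, L.opn.mem_nhds hx]
      with x' ⟨y', hy', hyS, hR'⟩ hx'
    obtain ⟨w', hw', he⟩ := hball (ball_subset_ball ht hy'.2)
    refine ⟨hx', w', hw', L.trans _ hx' _ hyS _ (hNS hw') hR'
      ((L.π_rel x0 hS0 _ hy'.1 _ (hNU hw')).2 he.symm), ?_⟩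
    have he' : π w' = π y' := he
    rw [he']
    exact hy'.2
  have hTc : ∀ x ∈ L.S, x ∉ Tc → ∀ᶠ x' in 𝓝 x, x' ∉ Tc := by
    intro x hx hxc
    have h1 := (hcp (Iic (r / 2)) isClosed_Iic).eventually_forall_of_forall_eventually
      (x₀ := x) (P := fun a b => ¬ (a ∈ L.S ∧ b ∈ L.S ∧ L.R a b)) fun w hw =>
        not_frequently.1 fun h => hxc ⟨hx, w, hw.1, hcl x hx w (hNS hw.1) h, hw.2⟩
    filter_upwards [h1] with x' h2 ⟨h3, w, hw, hR, hd⟩ using h2 w ⟨hw, hd⟩ ⟨h3, hNS hw, hR⟩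
  have hO := hTo (r / 4) (by linarith)
  have hOc : To (r / 4) ⊆ Tc := fun x ⟨hx, w, hw, hR, hd⟩ => ⟨hx, w, hw, hR, by linarith⟩
  have hcO : Tc ⊆ To r := fun x ⟨hx, w, hw, hR, hd⟩ => ⟨hx, w, hw, hR, by linarith⟩
  refine ⟨To (r / 4), hO, ⟨x0, hS0, x0, mem_of_mem_nhds hNn, L.refl x0 hS0, by
      rw [← ho, dist_self]; linarith⟩, fun x hx => hx.1,
    fun x ⟨hx, w, hw, hR, hd⟩ y hy hxy =>
      ⟨hy, w, hw, L.trans _ hy _ hx _ (hNS hw) (L.symm _ hx _ hy hxy) hR, hd⟩, ?_⟩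
  obtain ⟨K', hK', hKK'⟩ := exists_compact_superset T.K_cpt
  by_cases hΓ : {h : G | ∃ p ∈ interior K', h • p ∈ To (r / 4)}.Finite
  · refine ⟨_, hΓ.isCompact_biUnion fun h _ => hK'.image (T.smul_cont h), fun y hy => ?_⟩
    obtain ⟨g, hg⟩ := T.K_cov y
    exact mem_iUnion₂.2 ⟨g⁻¹, ⟨g • y, hKK' hg, by rwa [inv_smul_smul]⟩, g • y,
      interior_subset (hKK' hg), inv_smul_smul g y⟩
  exfalso
  -- the shell bound
  obtain ⟨a, ha⟩ := far x0 hS0 _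
    ((hcp (Ici (r / 2)) isClosed_Ici).prod (hcp (Iic (r / 4)) isClosed_Iic)) fun q hq =>
      ⟨hNU hq.1.1, hNU hq.2.1, fun he => by
        have h1 : r / 2 ≤ dist (π q.1) o := hq.1.2
        have h2 : dist (π q.2) o ≤ r / 4 := hq.2.2
        have he' : π q.1 = π q.2 := he
        rw [he'] at h1
        linarith⟩
  obtain ⟨b, hb, hsh⟩ := shell T k0 a
  have hsm : ∀ (g : G), ∀ x ∈ L.S, g • x ∈ L.S := fun g x hx => act g x ▸ L.sinv g x hx
  have hlow : ∀ (g : G) (y : M), T.Typ y → g • y ∈ To (r / 4) → ∀ x, g • x ∈ To r → g • x ∉ Tc →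
      T.φ x ≤ T.sl (k0 + 4) y x + b := by
    intro g y hy ⟨hyS, w', hw', hR', hd'⟩ x hx hxc
    have hc := (T.smul_cont g).continuousAt (x := x)
    refine T.φ_psh.le_of_ae (μ := μ) (hy.psh _) (inter_mem
      (hc.preimage_mem_nhds ((hTo r le_rfl).mem_nhds hx)) (hc.eventually (hTc _ hx.1 hxc))) b
      ((typ.and (hy.eq (k0 + 4))).mono fun z ⟨hz, he⟩ ⟨⟨hzS, w, hw, hR, _⟩, hzc⟩ => ?_)
    have hd : r / 2 ≤ dist (π w) o := le_of_lt (lt_of_not_ge fun h => hzc ⟨hzS, w, hw, hR, h⟩)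
    have h1 := hsh w w' (g • z) (g • y) (ha (w, w') ⟨⟨hw, hd⟩, hw', hd'.le⟩)
      (R_sub _ (hNS hw) _ hzS (L.symm _ hzS _ (hNS hw) hR)) (R_sub _ hyS _ (hNS hw') hR')
      (T.M0_inv g z hz.mem) (T.M0_inv g y hy.mem) ((near_of_good T hz.good _).inv g)
      ((near_of_good T hy.good _).inv g)
    rw [T.Xi_inv _ g z hz.mem y hy.mem] at h1
    rw [he]
    refine le_trans (le_of_eq ?_) (add_le_add (add_le_add h1 le_rfl) le_rfl)
    rw [add_comm _ (T.φ z), neg_add_self]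
  -- the sequence
  let η0 := Set.Infinite.natEmbedding _ hΓ
  have hx : ∀ k, ∃ x, x ∈ K' ∧ (η0 k : G) • x ∈ To (r / 4) ∧ T.Typ x := fun k => by
    obtain ⟨p, hp, hp'⟩ := (η0 k).2
    obtain ⟨x, h1, h2⟩ := typ.exists_mem (inter_mem (mem_interior_iff_mem_nhds.1 hp)
      ((T.smul_cont (η0 k)).continuousAt.preimage_mem_nhds (hO.mem_nhds hp')))
    exact ⟨x, h1.1, h1.2, h2⟩
  choose x hxK hxO hxT using hx
  obtain ⟨z, -, ψ, hψ, hz⟩ := hK'.tendsto_subseq hxK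
  obtain ⟨i, hi⟩ := A.cover z
  obtain ⟨k1, hk1⟩ := eventually_atTop.1 (hz.eventually (HA.ev_source hi))
  let σ : ℕ → ℕ := fun k => ψ (k + k1)
  have hσ : Function.Injective σ := fun a b h => by
    have := hψ.injective h
    omega
  have hsrc : ∀ k, x (σ k) ∈ (A.e i).source := fun k => hk1 _ (Nat.le_add_left _ _)
  have hae : AE μ A fun y => y ∉ L.Sᶜ := ae_of_cov (an_S.cov_of_ne fun h =>
    (h ▸ mem_univ x0 : x0 ∈ L.Sᶜ) hS0)
  have hcs : ∀ (g : G), ∀ w ∈ (A.e i).target,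
      ContinuousAt (fun w => g • (A.e i).symm w) w := fun g w hw =>
    (T.smul_cont g).continuousAt.comp ((A.e i).continuousAt_symm hw)
  have hG := fun k => glue (Z := (A.e i).symm ⁻¹' L.Sᶜ)
    (T := (fun w => (η0 (σ k) : G) • (A.e i).symm w) ⁻¹' Tc) (A.e i).open_target
    (fun w hw => (an_S _ (mem_univ _)).chart hw)
    (fun w hw => by
      have := (HA.fr_chart ((A.e i).map_target hw)).1 (hae.freq ((A.e i).symm w))
      rwa [(A.e i).right_inv hw] at this)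
    ((hxT (σ k)).psh (k0 + 4) i) (T.φ_psh i)
    (fun w _ => add_le_add ((hxT (σ k)).le _ _) le_rfl) hb
    (fun w hw h1 h2 => (hcs _ w hw).eventually (hTc _ (hsm _ _ (not_not.1 h1)) h2))
    (fun w hw _ h2 => by
      filter_upwards [(hcs _ w hw).preimage_mem_nhds ((hTo r le_rfl).mem_nhds (hcO h2))]
        with v h3 h4
      rw [add_right_comm]
      exact add_le_add (hlow _ _ (hxT _) (hxO _) _ h3 h4) le_rfl)
  choose Gk hGp hGk using hG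
  obtain ⟨c, hc, hpole⟩ := pole T (k0 + 4)
  have hNpos : 0 < 4 * (Module.finrank ℂ E : ℝ) / c + 1 := by positivity
  refine Wand.wand μ (A.e i).open_target ((A.e i).map_source hi) (T.φ_psh i) hGp
    (x := fun k => A.e i (x (σ k)))
    (((A.e i).continuousAt hi).tendsto.comp (hz.comp (tendsto_add_atTop_nat k1)))
    (C := 0) (a := b) (c := c) hNpos.le (by rw [add_mul, div_mul_cancel₀ _ hc.ne']; linarith)
    (fun k => ?_) ?_ (fun k => ?_) fun k => ?_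
  · filter_upwards [hae i] with w h1 hw
    simpa using (hGk k w hw (h1 hw)).1
  · filter_upwards [hae i] with w h1 hw
    have hwS : (A.e i).symm w ∈ L.S := not_not.1 (h1 hw)
    have hsub : {k | (η0 (σ k) : G) • (A.e i).symm w ∈ Tc}.Subsingleton := by
      intro k ⟨hk, u, hu, hR, _⟩ j ⟨hj, v, hv, hR', _⟩
      by_contra hne
      refine hW ((η0 (σ j) : G) * (η0 (σ k) : G)⁻¹) (fun h => hne ?_) u (hNs hu).1 v (hNs hv).1 ?_
      · exact (hσ (η0.injective (Subtype.ext (mul_inv_eq_one.1 h)))).symm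
      · have h2 := L.rinv ((η0 (σ j) : G) * (η0 (σ k) : G)⁻¹) _ hk _ (hNS hu) hR
        rw [act _ (_ • _), mul_smul, inv_smul_smul] at h2
        have h3 := L.sinv ((η0 (σ j) : G) * (η0 (σ k) : G)⁻¹) _ (hNS hu)
        exact L.trans _ h3 _ hj _ (hNS hv) (L.symm _ hj _ h3 h2) hR'
    have h4 := hsub.finite.compl_mem_cofinite
    rw [Nat.cofinite_eq_atTop] at h4
    filter_upwards [h4] with k hk using (hGk k w hw (h1 hw)).2.1 hk
  · obtain ⟨C, hC⟩ := hpole _ (hxT (σ k)) i (hsrc k)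
    refine ⟨C, ?_⟩
    have h1 : ∀ᶠ y in 𝓝 (x (σ k)), (η0 (σ k) : G) • y ∈ To (r / 4) :=
      (T.smul_cont _).continuousAt.preimage_mem_nhds (hO.mem_nhds (hxO _))
    filter_upwards [hC, mem_nhdsWithin_of_mem_nhds (((HA.ev_chart (hsrc k)).1 h1).and
      (HA.ev_target (hsrc k)))] with w h2 ⟨h3, h4⟩
    have h5 := hsm (η0 (σ k) : G)⁻¹ _ h3.1
    rw [inv_smul_smul] at h5
    rw [(hGk k w h4 (not_not.2 h5)).2.2 (hOc h3)]
    exact h2
  · refine (li_iff T.wb hNpos ((A.e i).map_source (hsrc k))).1 ?_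
    rw [(A.e i).left_inv (hsrc k)]
    exact (hxT _).good _ hNpos

/-- bounded classes lie in compact connected analytic sets -/
theorem exZ [Nontrivial E] [T2Space M] (an_S : A.An univ L.Sᶜ)
    (R_sub : ∀ x ∈ L.S, ∀ y ∈ L.S, L.R x y → (x, y) ∈ T.R0) {k0 : ℕ}
    (far : ∀ x ∈ L.S, ∀ C : Set (M × M), IsCompact C →
      (∀ q ∈ C, q.1 ∈ L.U x ∧ q.2 ∈ L.U x ∧ L.π x q.1 ≠ L.π x q.2) →
      ∃ a : ℝ, ∀ q ∈ C, q ∉ T.cl k0 a) :
    ∃ N : ℝ, 0 < N ∧ ∀ x ∈ L.S, LI μ A (fun y => eN N (T.φ y)) x → ∀ C : Set M, IsCompact C →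
      (∀ y ∈ L.S, L.R x y → y ∈ C) → ∃ Z : Set M, IsCompact Z ∧ IsPreconnected Z ∧
        A.An univ Z ∧ x ∈ Z ∧ ∀ᶠ y in 𝓝 x, L.R x y → y ∈ Z := by
  obtain ⟨N1, hN1⟩ := T.exists_pole (k0 + 2)
  obtain ⟨N2, hN2⟩ := T.exists_near (k0 + 2)
  set N := max (max N1 N2) 1 with hN
  have hN0 : 0 < N := lt_max_of_lt_right one_pos
  refine ⟨N, hN0, fun x hx hli C hC hxC => ?_⟩
  have hnear := hN2 N ((le_max_right _ _).trans (le_max_left _ _)) hN0 x hli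
  have hwb : WB (A.prod A) fun i q => T.wt i.1 q.1 + T.wt i.2 q.2 := by
    intro i q hq
    obtain ⟨C1, h1⟩ := T.wt_bdd i.1 q.1 hq.1
    obtain ⟨C2, h2⟩ := T.wt_bdd i.2 q.2 hq.2
    refine ⟨C1 + C2, ?_⟩
    filter_upwards [continuousAt_fst.eventually h1, continuousAt_snd.eventually h2] with w h3 h4
      using (abs_add_le _ _).trans (add_le_add h3 h4)
  set Zx : Set M := (fun y => (x, y)) ⁻¹'
    {q | ¬ LI (μ.prod μ) (A.prod A) (fun z => eN N (T.u (k0 + 2) z)) q} with hZx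
  have hZ : A.An univ Zx := (an_ni hwb (T.u_psh (k0 + 2)) hN0).preimage
    (fun y _ => HA.hol_inr A A x y) fun _ _ => mem_univ _
  have hin : ∀ y, (x, y) ∈ T.R1 (k0 + 4) → y ∈ Zx := fun y hy =>
    hN1 N ((le_max_left _ _).trans (le_max_left _ _)) hN0 _ hy
  set B : Set M := L.Sᶜ ∪ {y | ¬ LI μ A (fun y => eN N (T.φ y)) y} with hB
  have hBa : A.An univ B := an_S.union (an_ni T.wb T.φ_psh hN0)
  have hxB : x ∉ B := fun h => h.elim (fun h => h hx) fun h => h hli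
  have hS : ∀ y, y ∉ B → y ∈ L.S := fun y hy => not_not.1 fun h => hy (Or.inl h)
  have hR1 : ∀ y ∈ Zx, y ∉ B → (x, y) ∈ T.R1 (k0 + 2) := fun y hy hyB a => by
    by_contra h
    exact hy (TP.li_of_not_cl hN0 hli (not_not.1 fun h => hyB (Or.inr h)) h)
  have hloc : ∀ y ∈ Zx, y ∉ B → ∀ᶠ y' in 𝓝 y, y' ∈ Zx → y' ∉ B → L.R y y' := by
    intro y hy hyB
    have hyS := hS y hyB
    filter_upwards [(L.U_opn y hyS).mem_nhds (L.U_mem y hyS)] with y' hU hy' hyB'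
    refine (L.π_rel y hyS y (L.U_mem y hyS) y' hU).2 ?_
    by_contra hne
    obtain ⟨a, ha⟩ := far y hyS {(y, y')} isCompact_singleton fun q hq => by
      rw [mem_singleton_iff.1 hq]
      exact ⟨L.U_mem y hyS, hU, hne⟩
    exact ha _ rfl (TP.R1_comp hnear (fun a => TP.cl_symm (hR1 y hy hyB a)) (hR1 y' hy' hyB') a)
  have hxZ : x ∈ Zx := hin x (T.diag_R1 _ x)
  have hcomp : ∀ Y, A.Comp univ Zx Y → x ∈ Y → Y ⊆ C := by
    intro Y hY hxY
    obtain ⟨hYZ, d, hd⟩ := hY.irr isOpen_univ hZ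
    obtain ⟨-, hc, hcl⟩ := (hd.dich isOpen_univ hBa).resolve_left fun h =>
      hxB (h ⟨mem_univ _, hxY⟩)
    have hP : ∀ y ∈ {y | y ∈ univ ∧ A.Reg Y d y} \ B, y ∈ Zx ∧ y ∉ B := fun y hy =>
      ⟨hYZ hy.1.2.mem, hy.2⟩
    obtain ⟨y0, h1, h2⟩ := mem_closure_iff_nhds.1 (hcl ⟨mem_univ _, hxY⟩) _ (hloc x hxZ hxB)
    refine fun y hy => closure_minimal (fun v hv => ?_) hC.isClosed (hcl ⟨mem_univ _, hy⟩)
    have h3 : L.R y0 v := hc.induction₂' L.R (fun u hu => by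
        filter_upwards [mem_nhdsWithin_of_mem_nhds (hloc u (hP u hu).1 hu.2),
          self_mem_nhdsWithin] with u' h4 h5
        have h6 := h4 (hP u' h5).1 h5.2
        exact ⟨h6, L.symm _ (hS u hu.2) _ (hS u' h5.2) h6⟩)
      (fun u u' u'' a1 a2 a3 => L.trans _ (hS u a1.2) _ (hS u' a2.2) _ (hS u'' a3.2)) h2 hv
    exact hxC v (hS v hv.2)
      (L.trans _ hx _ (hS y0 h2.2) _ (hS v hv.2) (h1 (hP y0 h2).1 h2.2) h3)
  have hZa : A.An univ (⋃₀ {Y | A.Comp univ Zx Y ∧ x ∈ Y}) :=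
    HA.an_sUnion_comp isOpen_univ hZ fun Y hY => hY.1
  obtain ⟨Y0, hY0⟩ := HA.comp_cover isOpen_univ hZ (mem_univ x) hxZ
  refine ⟨_, hC.of_isClosed_subset hZa.isClosed (sUnion_subset fun Y hY => hcomp Y hY.1 hY.2),
    isPreconnected_sUnion x _ (fun Y hY => hY.2) fun Y hY => ?_, hZa, ⟨Y0, hY0, hY0.2⟩, ?_⟩
  · obtain ⟨-, d, hd⟩ := hY.1.irr isOpen_univ hZ
    have h1 : IsPreconnected {y | y ∈ univ ∧ A.Reg Y d y} := hd.2.2.1
    exact h1.subset_closure (fun y hy => hy.2.mem) fun y hy => hd.2.2.2 ⟨mem_univ _, hy⟩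
  obtain ⟨W, hW, hfin⟩ := HA.comp_lf isOpen_univ hZ (mem_univ x)
  have h1 : ∀ᶠ y in 𝓝 x, ∀ Y ∈ {Y | A.Comp univ Zx Y ∧ (Y ∩ W).Nonempty}, y ∈ Y → x ∈ Y := by
    refine (eventually_all_finite hfin).2 fun Y hY => ?_
    by_cases h : x ∈ Y
    · exact Eventually.of_forall fun _ _ => h
    · exact ((hY.1.an isOpen_univ hZ x (mem_univ x)).eventually_notMem h).mono
        fun _ h1 h2 => (h1 h2).elim
  filter_upwards [h1, hW, L.opn.mem_nhds hx] with y h2 h3 h4 h5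
  obtain ⟨Y, hY, hyY⟩ := HA.comp_cover isOpen_univ hZ (mem_univ y)
    (hin y fun a => R_sub x hx y h4 h5 _ a)
  exact ⟨Y, ⟨hY, h2 Y ⟨hY, y, hyY, h3⟩ hyY⟩, hyY⟩

/-- **the wandering case** -/
theorem wand [Nontrivial E] [T2Space M] [PreconnectedSpace M] [Countable A.ι]
    (act : ∀ g x, L.act g x = g • x) (an_S : A.An univ L.Sᶜ)
    (R_sub : ∀ x ∈ L.S, ∀ y ∈ L.S, L.R x y → (x, y) ∈ T.R0) (typ : AE μ A T.Typ) {k0 : ℕ}
    (far : ∀ k, k0 ≤ k → ∀ x ∈ L.S, ∀ C : Set (M × M), IsCompact C →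
      (∀ q ∈ C, q.1 ∈ L.U x ∧ q.2 ∈ L.U x ∧ L.π x q.1 ≠ L.π x q.2) →
      ∃ a : ℝ, ∀ q ∈ C, q ∉ T.cl k a)
    (hop : ∀ x ∈ L.S, ∀ y ∈ L.S, L.R x y → ∀ W ∈ 𝓝 y, ∀ᶠ x' in 𝓝 x,
      ∃ y' ∈ W, y' ∈ L.S ∧ L.R x' y')
    (hcl : ∀ x ∈ L.S, ∀ y ∈ L.S, (∃ᶠ q in 𝓝 (x, y), q.1 ∈ L.S ∧ q.2 ∈ L.S ∧ L.R q.1 q.2) →
      L.R x y)
    (hW : L.Wand) : ∃ V : Set M, IsOpen V ∧ V.Nonempty ∧ V ⊆ L.S ∧ ∃ C : Set M, IsCompact C ∧
      (∀ x ∈ V, ∀ y ∈ L.S, L.R x y → y ∈ C) ∧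
      ∀ x ∈ V, ∃ Z : Set M, IsCompact Z ∧ IsPreconnected Z ∧ A.An univ Z ∧ x ∈ Z ∧
        ∀ᶠ y in 𝓝 x, L.R x y → y ∈ Z := by
  obtain ⟨O, h1, ⟨x0, h2⟩, h3, h4, C, hC, h5⟩ :=
    bdd T L act an_S R_sub typ (far k0 le_rfl) hop hcl hW
  obtain ⟨N, hN, hZ⟩ := exZ T L an_S R_sub (far k0 le_rfl)
  obtain ⟨x1, h6, h7⟩ := typ.exists_mem (h1.mem_nhds h2)
  exact ⟨O ∩ {x | LI μ A (fun y => eN N (T.φ y)) x},
    h1.inter (isOpen_iff_mem_nhds.2 fun _ hx => LI.eventually hx), ⟨x1, h6, h7.good N hN⟩,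
    fun x hx => h3 hx.1, C, hC, fun x hx y hy hR => h5 (h4 x hx.1 y hy hR),
    fun x hx => hZ x (h3 hx.1) hx.2 C hC fun y hy hR => h5 (h4 x hx.1 y hy hR)⟩

end

end Crest.Agent.X261.EqW
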