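import Crest.Agent.X261.EqW.Typ
import Crest.Agent.X261.Eqv.D
import Crest.Agent.X261.Eq7.Ch

/-!
# Row 261, package EQV: the theorem of the package
-/

namespace Crest.Agent.X261.EqW

theorem eqvStmt : Eqv.EqvStmt :=
  Eqv.eqv_of (fun _ _ _ _ _ _ _ _ _ _ _ _ _ _ _ _ _ _ T => lv T) Eq7.chStmt
    fun _ _ _ _ _ _ _ _ _ _ _ _ _ _ _ _ _ _ T => typ T

end Crest.Agent.X261.EqW
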