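import Crest.Agent.X261.Eqv.Defs2
import Crest.Agent.X261.Ans.Stat
import Crest.Agent.X261.Psh.Sko71

/-!
# Row 261, package EQV (helper18), file `Lv`: the graded system of a two-point system
-/

set_option autoImplicit false
set_option linter.unusedSectionVars false
set_option linter.dupNamespace false

open Set Filter Topology MeasureTheory Metric
open scoped ENNReal

namespace Crest.Agent.X261.EqW

open Crest.Agent.X261.Ans Crest.Agent.X261.Psh Crest.Agent.X261.Eqv

noncomputable section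

variable {E : Type} [NormedAddCommGroup E] [NormedSpace ℂ E] [FiniteDimensional ℂ E]
  [MeasurableSpace E] [BorelSpace E] {μ : Measure E} [μ.IsAddHaarMeasure]
  {M : Type} [TopologicalSpace M] {A : HA E M} {G : Type} [Group G] [MulAction G M]
  (T : TP μ A G)

/-- Skoda: the points where `φ` is finite are good -/
theorem good_of_ne_bot {x : M} (hx : T.φ x ≠ ⊥) : T.Good x := fun N hN => by
  obtain ⟨i, hi⟩ := A.cover x
  have hz := (A.e i).map_source hi
  have h := (li_iff (μ := μ) (u := T.φ) T.wb hN hz).2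
    (Sk.exists_nhds μ (T.φ_psh i) ((A.e i).open_target.mem_nhds hz) (by
      rw [(A.e i).left_inv hi]
      exact EReal.add_ne_bot_iff.2 ⟨hx, EReal.coe_ne_bot _⟩) hN.le)
  rwa [(A.e i).left_inv hi] at h

theorem good_of_mem {x : M} (hx : x ∈ T.M0) : T.Good x := good_of_ne_bot T (T.M0_fin x hx)

theorem li_inv {N : ℝ} (g : G) {x : M} (h : LI μ A (fun y => eN N (T.φ y)) (g • x)) :
    LI μ A (fun y => eN N (T.φ y)) x := by
  have := h.comp' (A := A) (f := fun y => g • y) (g := fun y => g⁻¹ • y)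
    (T.smul_cont g).continuousAt (T.hol g⁻¹ _)
    (Eventually.of_forall fun y => inv_smul_smul g y)
    (Eventually.of_forall fun y => smul_inv_smul g y)
  simpa only [T.φ_inv] using this

theorem wb2 : WB (A.prod A) fun i q => T.wt i.1 q.1 + T.wt i.2 q.2 := by
  intro i q hq
  obtain ⟨C1, h1⟩ := T.wt_bdd i.1 q.1 hq.1
  obtain ⟨C2, h2⟩ := T.wt_bdd i.2 q.2 hq.2
  refine ⟨C1 + C2, ?_⟩
  filter_upwards [continuousAt_fst.eventually h1, continuousAt_snd.eventually h2] with w h3 h4
    using (abs_add_le _ _).trans (add_le_add h3 h4)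

/-- **the graded system** -/
theorem lv [Nontrivial E] [Nonempty M] : Nonempty T.Lv := by
  choose N1 hN1 using T.exists_pole
  choose N2 hN2 using T.exists_near
  let κ : ℕ → ℝ := fun k => max (max (N1 k) (N2 k)) 1
  have hκ : ∀ k, 0 < κ k := fun k => lt_max_of_lt_right one_pos
  let NB : ℕ → Set M := fun k => {x | ¬ LI μ A (fun y => eN (κ k) (T.φ y)) x}
  let W : ℕ → Set (M × M) := fun k =>
    {q | ¬ LI (μ.prod μ) (A.prod A) (fun z => eN (κ k) (T.u k z)) q}
  let B : ℕ → Set M := fun k => ⋃ j ∈ Iic k, NB j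
  let V : ℕ → Set (M × M) := fun k => ⋂ j ∈ Iic k, ⋂ g : G,
    (fun q : M × M => (g • q.1, g • q.2)) ⁻¹' W j ∩ (fun q : M × M => (g • q.2, g • q.1)) ⁻¹' W j
  have hV : ∀ k x y, (x, y) ∈ V k ↔
      ∀ j ≤ k, ∀ g : G, (g • x, g • y) ∈ W j ∧ (g • y, g • x) ∈ W j := fun k x y => by
    simp only [V, mem_iInter, mem_inter_iff, mem_preimage, mem_Iic]
  have hB : ∀ k x, x ∉ B k → LI μ A (fun y => eN (κ k) (T.φ y)) x := fun k x hx =>
    not_not.1 fun h => hx (mem_biUnion (mem_Iic.2 le_rfl) h)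
  have hmono : Monotone B := fun k l h => biUnion_subset_biUnion_left (Iic_subset_Iic.2 h)
  have hanti : Antitone V := fun k l h => biInter_subset_biInter_left (Iic_subset_Iic.2 h)
  have near : ∀ k x, x ∉ B k → T.Near k x := fun k x hx =>
    hN2 k _ ((le_max_right _ _).trans (le_max_left _ _)) (hκ k) x (hB k x hx)
  have R1_sub : ∀ k, T.R1 (k + 2) ⊆ V k := fun k ⟨x, y⟩ hq => (hV k x y).2 fun j hj g => by
    have h1 : (g • x, g • y) ∈ T.R1 (j + 2) := fun a =>
      TP.cl_inv g (TP.R1_anti (by omega) hq a)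
    have h2 := hN1 j _ ((le_max_left _ _).trans (le_max_left _ _)) (hκ j)
    exact ⟨h2 _ h1, h2 _ fun a => TP.cl_symm (h1 a)⟩
  have sub_R1 : ∀ k x y, x ∉ B k → y ∉ B k → (x, y) ∈ V k → (x, y) ∈ T.R1 k := by
    intro k x y hx hy h a
    by_contra h1
    have h2 := ((hV k x y).1 h k le_rfl 1).1
    rw [one_smul, one_smul] at h2
    exact h2 (TP.li_of_not_cl (hκ k) (hB k x hx) (hB k y hy) h1)
  have hW : ∀ k, (A.prod A).An univ (W k) := fun k => an_ni (wb2 T) (T.u_psh k) (hκ k)
  have h1 : ∀ (g : G) (q : M × M), (A.prod A).Hol A (fun q : M × M => g • q.1) q := fun g q =>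
    (T.hol g q.1).comp (HA.hol_fst A A q)
  have h2 : ∀ (g : G) (q : M × M), (A.prod A).Hol A (fun q : M × M => g • q.2) q := fun g q =>
    (T.hol g q.2).comp (HA.hol_snd A A q)
  refine ⟨{
      hol := T.hol
      K := T.K
      K_cpt := T.K_cpt
      K_cov := T.K_cov
      B := B
      V := V
      an_B := fun k x _ => HA.anAt_biUnion (finite_Iic k) fun j _ =>
        an_ni T.wb T.φ_psh (hκ j) x (mem_univ x)
      ne_B := fun k h => ?_
      B_mono := hmono
      B_inv := fun k g x hx => ?_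
      an_V := fun k => HA.an_biInter isOpen_univ fun j _ => HA.an_iInter isOpen_univ fun g =>
        ((hW j).preimage (fun q _ => (h1 g q).prodMk (h2 g q)) (mapsTo_univ _ _)).inter
          ((hW j).preimage (fun q _ => (h2 g q).prodMk (h1 g q)) (mapsTo_univ _ _))
      V_anti := hanti
      diag := fun k x => R1_sub k (T.diag_R1 _ x)
      symm := fun k x y h => (hV k y x).2 fun j hj g => ((hV k x y).1 h j hj g).symm
      inv := fun k g x y h => (hV k _ _).2 fun j hj g' => by
        simpa only [mul_smul] using (hV k x y).1 h j hj (g' * g)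
      comp := fun k x y z hx hy hz hxy hyz => R1_sub k
        (TP.R1_comp (near _ y hy) (sub_R1 _ x y hx hy hxy) (sub_R1 _ y z hy hz hyz))
      near := near
      R1_sub := R1_sub
      sub_R1 := sub_R1 }⟩
  · obtain ⟨x, -, hx⟩ := T.M0_ae.exists_mem (x := Classical.arbitrary M) univ_mem
    obtain ⟨j, -, hj⟩ := mem_iUnion₂.1 (h ▸ mem_univ x : x ∈ B k)
    exact hj (good_of_mem T hx _ (hκ j))
  · obtain ⟨j, hj, h⟩ := mem_iUnion₂.1 hx
    exact mem_biUnion hj fun h' => h (li_inv T g h')

end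

end Crest.Agent.X261.EqW
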