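import Crest.Agent.X261.EqW.Lv

/-!
# Row 261, package EQV (helper18), file `Typ`: almost every point is typical
-/

set_option autoImplicit false
set_option linter.unusedSectionVars false
set_option linter.dupNamespace false

open Set Filter Topology MeasureTheory Metric
open scoped ENNReal

namespace Crest.Agent.X261.EqW

open Crest.Agent.X261.Ans Crest.Agent.X261.Psh Crest.Agent.X261.Eqv

noncomputable section

variable {E : Type} [NormedAddCommGroup E] [NormedSpace ℂ E] [FiniteDimensional ℂ E]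
  [MeasurableSpace E] [BorelSpace E] {μ : Measure E} [μ.IsAddHaarMeasure]
  {M : Type} [TopologicalSpace M] {A : HA E M} {G : Type} [Group G] [MulAction G M]
  (T : TP μ A G)

theorem sl_psh (k : ℕ) (y : M) : PW A T.wt (T.sl k y) := fun i => by
  obtain ⟨j, hj⟩ := A.cover y
  refine ((((T.u_psh k (i, j)).slice_left (A.e j y)).mono fun z hz =>
    ⟨hz, (A.e j).map_source hj⟩).add_const
      (-(T.φ y).toReal - T.wt j (A.e j y))).congr fun z _ => ?_
  show T.u k ((A.e i).symm z, (A.e j).symm (A.e j y)) +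
      ((T.wt i z + T.wt j (A.e j y) : ℝ) : EReal) + _ = T.u k ((A.e i).symm z, y) + _ + _
  rw [(A.e j).left_inv hj, add_assoc, add_assoc, ← EReal.coe_add, ← EReal.coe_add]
  congr 2
  ring

theorem sl_pole (k : ℕ) {y : M} (hy : y ∈ T.M0)
    (he : AE μ A fun x => T.sl k y x = T.Xi k x y + T.φ x) : ∃ c : ℝ, 0 < c ∧ ∀ i,
    y ∈ (A.e i).source → ∃ C : ℝ, ∀ᶠ z in 𝓝[≠] (A.e i y), T.sl k y ((A.e i).symm z) ≤
      ((c * Real.log ‖z - A.e i y‖ + C : ℝ) : EReal) := by
  obtain ⟨c, hc, hp⟩ := T.pole k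
  refine ⟨c, hc, fun i hi => ?_⟩
  have hyt := (A.e i).map_source hi
  obtain ⟨C, V, hV, hp⟩ := hp i _ hyt
  obtain ⟨C', hC'⟩ := T.wt_bdd i _ hyt
  refine ⟨C + C' + C', ?_⟩
  have h0 : ∀ᶠ w in 𝓝 (A.e i y), w ∈ V ∧ |T.wt i w| ≤ C' ∧ w ∈ (A.e i).target :=
    (Filter.Eventually.and hV (hC'.and (HA.ev_target hi)))
  filter_upwards [mem_nhdsWithin_of_mem_nhds h0.eventually_nhds, self_mem_nhdsWithin]
    with z hz hne
  have hne : z ≠ A.e i y := hne
  have hcont : ContinuousAt (fun w => c * Real.log ‖w - A.e i y‖ + (C + C')) z :=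
    (continuousAt_const.mul ((continuousAt_id.sub continuousAt_const).norm.log
      (norm_ne_zero_iff.2 (sub_ne_zero.2 hne)))).add continuousAt_const
  have key := (sl_psh T k y i).le_of_ae μ (A.e i).open_target hz.self_of_nhds.2.2
    (g := fun w => ((c * Real.log ‖w - A.e i y‖ + (C + C') : ℝ) : EReal))
    (continuous_coe_real_ereal.continuousAt.comp hcont).upperSemicontinuousAt
    (inter_mem hz (isOpen_ne.mem_nhds hne)) (by
      filter_upwards [he i, T.M0_ae i] with w h1 h2 hw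
      have hw1 : w ∈ V ∧ |T.wt i w| ≤ C' ∧ w ∈ (A.e i).target := hw.1
      have hw2 : w ≠ A.e i y := hw.2
      have h3 := hp _ (mem_of_mem_nhds hV) w hw1.1 (by rw [(A.e i).left_inv hi]; exact hy)
        (h2 hw1.2.2) ‖w - A.e i y‖ (norm_pos_iff.2 (sub_ne_zero.2 hw2)) (norm_sub_rev _ _).le
      rw [(A.e i).left_inv hi, T.Xi_symm k y hy _ (h2 hw1.2.2), ← h1 hw1.2.2] at h3
      exact le_coe_mono (add_le_coe h3 le_rfl) (by linarith [(abs_le.1 hw1.2.1).2]))
  exact le_coe_mono (add_coe_le_iff.1 key) (by linarith [(abs_le.1 hz.self_of_nhds.2.1).1])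

/-- **almost every point is typical** -/
theorem typ [Countable A.ι] : AE μ A T.Typ := by
  have h1 : AE μ A fun y => ∀ k, AE μ A fun x => x ∈ T.M0 ∧
      T.sl k y x = T.Xi k x y + T.φ x := ae_all fun k =>
    (T.u_eq' k).fub.mono fun y hy => hy.mono fun x hx => ⟨hx.1, by
      have h2 : T.u k (x, y) =
        T.Xi k x y + (((T.φ x).toReal + (T.φ y).toReal : ℝ) : EReal) := hx.2.2
      rw [TP.sl, h2, add_assoc, ← EReal.coe_add, add_neg_cancel_right, ← T.φ_real hx.1]⟩
  refine (T.M0_ae.and h1).mono fun y ⟨hy, h⟩ => ⟨hy, good_of_mem T hy, fun k => sl_psh T k y,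
    fun k x => ?_, fun k => (h k).mono fun _ h => h.2,
    fun k => sl_pole T k hy ((h k).mono fun _ h => h.2)⟩
  have h2 := (sl_psh T k y).le_of_ae (μ := μ) T.φ_psh (x := x) univ_mem 0
    ((h k).mono fun z hz _ => by
      rw [hz.2, add_comm]
      exact add_le_add le_rfl (T.Xi_le k z hz.1 y hy))
  simpa using h2

end

end Crest.Agent.X261.EqW
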